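import Mathlib

/-! # P080: symmetry reduction for infinity-harmonic functions -/

open Filter Topology
open scoped RealInnerProductSpace

namespace Vale.Agent.P080

section Defs

variable {V : Type} [NormedAddCommGroup V] [InnerProductSpace ℝ V] [CompleteSpace V]

/-- The infinity Laplacian `⟨D²φ ∇φ, ∇φ⟩`. -/
noncomputable def infLap (φ : V → ℝ) (z : V) : ℝ :=
  fderiv ℝ (fderiv ℝ φ) z (gradient φ z) (gradient φ z)

/-- Viscosity subsolutions of `Δ∞ u = 0`. -/
def SubOn (u : V → ℝ) (Ω : Set V) : Prop :=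
  ∀ z ∈ Ω, ∀ φ : V → ℝ, ContDiffAt ℝ 2 φ z → IsLocalMax (fun x => u x - φ x) z → 0 ≤ infLap φ z

/-- Infinity-harmonic: continuous and a viscosity solution of `Δ∞ u = 0`. -/
def InfHarmonicOn (u : V → ℝ) (Ω : Set V) : Prop :=
  ContinuousOn u Ω ∧ ∀ z ∈ Ω, ∀ φ : V → ℝ, ContDiffAt ℝ 2 φ z →
    (IsLocalMax (fun x => u x - φ x) z → 0 ≤ infLap φ z) ∧
      (IsLocalMin (fun x => u x - φ x) z → infLap φ z ≤ 0)

theorem infLap_neg (φ : V → ℝ) (z : V) : infLap (fun x => -φ x) z = -infLap φ z := by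
  have h1 : fderiv ℝ (fun x => -φ x) = fun x => -fderiv ℝ φ x := funext fun x => fderiv_fun_neg
  have h2 : gradient (fun x => -φ x) z = -gradient φ z := by
    simp only [gradient, fderiv_fun_neg, map_neg]
  unfold infLap
  rw [h2, h1, fderiv_fun_neg]
  simp

theorem infHarmonicOn_iff (u : V → ℝ) (Ω : Set V) :
    InfHarmonicOn u Ω ↔ ContinuousOn u Ω ∧ SubOn u Ω ∧ SubOn (fun x => -u x) Ω := by
  constructor
  · rintro ⟨hc, h⟩
    refine ⟨hc, fun z hz φ hφ hm => (h z hz φ hφ).1 hm, fun z hz φ hφ hm => ?_⟩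
    have hm' : IsLocalMin (fun x => u x - (fun x => -φ x) x) z := by
      have := hm.neg
      simpa [sub_eq_add_neg, add_comm] using this
    have := (h z hz _ hφ.neg).2 hm'
    rw [infLap_neg] at this
    linarith
  · rintro ⟨hc, h1, h2⟩
    refine ⟨hc, fun z hz φ hφ => ⟨h1 z hz φ hφ, fun hm => ?_⟩⟩
    have hm' : IsLocalMax (fun x => -u x - (fun x => -φ x) x) z := by
      have := hm.neg
      simpa [sub_eq_add_neg, add_comm] using this
    have := h2 z hz _ hφ.neg hm'
    rw [infLap_neg] at this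
    linarith

/-- The gradient is characterised by the derivative. -/
theorem inner_gradient (φ : V → ℝ) (z v : V) : ⟪gradient φ z, v⟫ = fderiv ℝ φ z v := by
  simp [gradient, InnerProductSpace.toDual_symm_apply]

theorem gradient_eq_of {φ : V → ℝ} {z g : V} (h : ∀ v, fderiv ℝ φ z v = ⟪g, v⟫) :
    gradient φ z = g :=
  ext_inner_right ℝ fun v => by rw [inner_gradient, h]

/-- `Δ∞` of a quadratic polynomial at its centre. -/
theorem infLap_quad (a : ℝ) (z₀ p : V) (B : V →L[ℝ] V →L[ℝ] ℝ) :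
    infLap (fun z => a + ⟪p, z - z₀⟫ + B (z - z₀) (z - z₀)) z₀ = 2 * B p p := by
  have hd : ∀ z, HasFDerivAt (fun z => a + ⟪p, z - z₀⟫ + B (z - z₀) (z - z₀))
      (innerSL ℝ p + (B.flip (z - z₀) + B (z - z₀))) z := by
    intro z
    have hs : HasFDerivAt (fun z => z - z₀) (ContinuousLinearMap.id ℝ V) z :=
      (hasFDerivAt_id z).sub_const z₀
    have h1 : HasFDerivAt (fun z => a + innerSL ℝ p (z - z₀)) (innerSL ℝ p) z := by
      simpa using ((innerSL ℝ p).hasFDerivAt.comp z hs).const_add a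
    have h2 : HasFDerivAt (fun z => B (z - z₀) (z - z₀)) (B.flip (z - z₀) + B (z - z₀)) z := by
      have := (B.hasFDerivAt.comp z hs).clm_apply hs
      refine (this.congr_of_eventuallyEq (.of_forall fun v => rfl)).congr_fderiv
        (ContinuousLinearMap.ext fun v => ?_)
      simp [add_comm]
    simpa using h1.fun_add h2
  have h1 : fderiv ℝ (fun z => a + ⟪p, z - z₀⟫ + B (z - z₀) (z - z₀)) =
      fun z => innerSL ℝ p + (B.flip (z - z₀) + B (z - z₀)) := funext fun z => (hd z).fderiv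
  have hg : gradient (fun z => a + ⟪p, z - z₀⟫ + B (z - z₀) (z - z₀)) z₀ = p :=
    gradient_eq_of fun v => by rw [h1]; simp
  have h2 : HasFDerivAt (fun z => innerSL ℝ p + (B.flip (z - z₀) + B (z - z₀))) (B.flip + B) z₀ := by
    have hs : HasFDerivAt (fun z => z - z₀) (ContinuousLinearMap.id ℝ V) z₀ :=
      (hasFDerivAt_id z₀).sub_const z₀
    simpa using ((B.flip.hasFDerivAt.comp z₀ hs).fun_add (B.hasFDerivAt.comp z₀ hs)).const_add
      (innerSL ℝ p)
  unfold infLap
  rw [hg, h1, h2.fderiv]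
  simp
  ring

omit [CompleteSpace V] in
theorem contDiff_quad (a : ℝ) (z₀ p : V) (B : V →L[ℝ] V →L[ℝ] ℝ) :
    ContDiff ℝ 2 (fun z => a + ⟪p, z - z₀⟫ + B (z - z₀) (z - z₀)) := by
  have hs : ContDiff ℝ 2 (fun z : V => z - z₀) := contDiff_id.sub contDiff_const
  exact (contDiff_const.add ((innerSL ℝ p).contDiff.comp hs)).add ((B.contDiff.comp hs).clm_apply hs)

omit [CompleteSpace V] in
/-- Second order Taylor bound. -/
theorem taylor_le {φ : V → ℝ} {w : V} (hφ : ContDiffAt ℝ 2 φ w) {ε : ℝ} (hε : 0 < ε) :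
    ∀ᶠ x in 𝓝 w, |φ x - φ w - fderiv ℝ φ w (x - w) -
      fderiv ℝ (fderiv ℝ φ) w (x - w) (x - w) / 2| ≤ ε * ‖x - w‖ ^ 2 := by
  set A := fderiv ℝ (fderiv ℝ φ) w with hA
  have hsymm : ∀ a b, A a b = A b a :=
    fun a b => (hφ.isSymmSndFDerivAt (by simp)).eq a b
  have hD : HasFDerivAt (fderiv ℝ φ) A w :=
    ((hφ.fderiv_right (m := 1) (by norm_num)).differentiableAt (by simp)).hasFDerivAt
  have hdiff : ∀ᶠ x in 𝓝 w, DifferentiableAt ℝ φ x :=
    (hφ.eventually (by simp)).mono fun x hx => hx.differentiableAt (by simp)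
  obtain ⟨δ, hδ, hball⟩ := Metric.eventually_nhds_iff.1 ((hD.isLittleO.def hε).and hdiff)
  refine Metric.eventually_nhds_iff.2 ⟨δ, hδ, fun x hx => ?_⟩
  set g : V → ℝ := fun y => φ y - (fderiv ℝ φ w (y - w) + A (y - w) (y - w) / 2) with hg
  have hg' : ∀ y, DifferentiableAt ℝ φ y →
      HasFDerivAt g (fderiv ℝ φ y - fderiv ℝ φ w - A (y - w)) y := by
    intro y hy
    have hs : HasFDerivAt (fun y => y - w) (ContinuousLinearMap.id ℝ V) y :=
      (hasFDerivAt_id y).sub_const w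
    have h2 := ((A.hasFDerivAt.comp y hs).clm_apply hs).mul_const ((2 : ℝ)⁻¹)
    have h := hy.hasFDerivAt.fun_sub (((fderiv ℝ φ w).hasFDerivAt.comp y hs).fun_add h2)
    refine (h.congr_of_eventuallyEq (.of_forall fun v => ?_)).congr_fderiv
      (ContinuousLinearMap.ext fun v => ?_)
    · simp [hg, div_eq_mul_inv]
    · simp [hsymm v y, hsymm v w]
      ring
  have hle : dist x w < δ := hx
  have hsub : ∀ y ∈ Metric.closedBall w (dist x w), dist y w < δ :=
    fun y hy => lt_of_le_of_lt hy hle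
  have := (convex_closedBall w (dist x w)).norm_image_sub_le_of_norm_hasFDerivWithin_le
    (C := ε * dist x w) (f := g)
    (f' := fun y => fderiv ℝ φ y - fderiv ℝ φ w - A (y - w))
    (fun y hy => (hg' y (hball (hsub y hy)).2).hasFDerivWithinAt)
    (fun y hy => ((hball (hsub y hy)).1).trans (by
      gcongr
      rw [← dist_eq_norm]; exact hy))
    (Metric.mem_closedBall_self dist_nonneg) (Metric.mem_closedBall.2 le_rfl)
  rw [dist_eq_norm, Real.norm_eq_abs] at this
  simp only [hg, sub_self, map_zero] at this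
  rw [sq, ← mul_assoc]
  convert this using 2
  simp
  ring

end Defs

end Vale.Agent.P080
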