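import Vale.Agent.P080.Basic

/-! # P080: one-sided Liouville theorem for infinity-subharmonic functions -/

open Filter Topology Metric
open scoped RealInnerProductSpace

namespace Vale.Agent.P080

variable {V : Type} [NormedAddCommGroup V] [InnerProductSpace ℝ V] [FiniteDimensional ℝ V]

/-- The perturbed cone `b r - δ r^2` is a strict supersolution away from its vertex. -/
theorem infLap_cone (x₀ z : V) (b δ : ℝ) (hz : z ≠ x₀) :
    ContDiffAt ℝ 2 (fun y => b * ‖y - x₀‖ - δ * ‖y - x₀‖ ^ 2) z ∧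
      infLap (fun y => b * ‖y - x₀‖ - δ * ‖y - x₀‖ ^ 2) z =
        -2 * δ * (b - 2 * δ * ‖z - x₀‖) ^ 2 := by
  have hne : z - x₀ ≠ 0 := sub_ne_zero.2 hz
  have hs : ∀ y, HasFDerivAt (fun y => y - x₀) (ContinuousLinearMap.id ℝ V) y :=
    fun y => (hasFDerivAt_id y).sub_const x₀
  have hcs : ContDiffAt ℝ 2 (fun y => y - x₀) z := contDiffAt_id.sub contDiffAt_const
  refine ⟨(contDiffAt_const.mul (hcs.norm ℝ hne)).sub (contDiffAt_const.mul (hcs.norm_sq ℝ)), ?_⟩
  have hnorm : ∀ y, y ≠ x₀ →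
      HasFDerivAt (fun y => ‖y - x₀‖) ((‖y - x₀‖)⁻¹ • innerSL ℝ (y - x₀)) y := by
    intro y hy
    have hne' : y - x₀ ≠ 0 := sub_ne_zero.2 hy
    have hd := ((hasStrictFDerivAt_norm_sq (y - x₀)).hasFDerivAt.comp y (hs y)).sqrt
      (by simp [Function.comp, hne'])
    refine (hd.congr_of_eventuallyEq (.of_forall fun w => ?_)).congr_fderiv
      (ContinuousLinearMap.ext fun v => ?_)
    · simp [Real.sqrt_sq (norm_nonneg _)]
    · simp [Real.sqrt_sq (norm_nonneg _)]
      ring
  have hd1 : ∀ y, y ≠ x₀ → HasFDerivAt (fun y => b * ‖y - x₀‖ - δ * ‖y - x₀‖ ^ 2)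
      ((b * (‖y - x₀‖)⁻¹ - 2 * δ) • innerSL ℝ (y - x₀)) y := by
    intro y hy
    have h := ((hnorm y hy).const_mul b).fun_sub
      (((hasStrictFDerivAt_norm_sq (y - x₀)).hasFDerivAt.comp y (hs y)).const_mul δ)
    refine (h.congr_of_eventuallyEq (.of_forall fun w => rfl)).congr_fderiv
      (ContinuousLinearMap.ext fun v => ?_)
    simp
    ring
  have heq : fderiv ℝ (fun y => b * ‖y - x₀‖ - δ * ‖y - x₀‖ ^ 2) =ᶠ[𝓝 z]
      fun y => (b * (‖y - x₀‖)⁻¹ - 2 * δ) • innerSL ℝ (y - x₀) :=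
    (eventually_ne_nhds hz).mono fun y hy => (hd1 y hy).fderiv
  have hg : gradient (fun y => b * ‖y - x₀‖ - δ * ‖y - x₀‖ ^ 2) z =
      (b * (‖z - x₀‖)⁻¹ - 2 * δ) • (z - x₀) :=
    gradient_eq_of fun v => by
      rw [(hd1 z hz).fderiv]
      simp [real_inner_smul_left, innerSL_apply_apply ℝ, inner_sub_left]
  have hinv : HasFDerivAt (fun y => b * (‖y - x₀‖)⁻¹ - 2 * δ)
      (b • ((-(‖z - x₀‖ ^ 2)⁻¹) • ((‖z - x₀‖)⁻¹ • innerSL ℝ (z - x₀)))) z :=
    (((hasDerivAt_inv (norm_ne_zero_iff.2 hne)).comp_hasFDerivAt z (hnorm z hz)).const_mul b).sub_const _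
  have h2 := hinv.fun_smul ((innerSL ℝ).hasFDerivAt.comp z (hs z))
  unfold infLap
  rw [hg, (h2.congr_of_eventuallyEq (heq.trans (.of_forall fun y => rfl))).fderiv]
  have hr : ‖z - x₀‖ ≠ 0 := norm_ne_zero_iff.2 hne
  simp only [add_apply, smul_apply,
    ContinuousLinearMap.smulRight_apply, ContinuousLinearMap.comp_apply, ContinuousLinearMap.id_apply,
    Function.comp_apply, smul_eq_mul, innerSL_apply_apply ℝ, real_inner_smul_left, real_inner_smul_right,
    real_inner_self_eq_norm_sq, norm_smul, mul_pow, Real.norm_eq_abs, sq_abs]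
  field_simp
  ring

/-- Comparison with cones from above, on a ball. -/
theorem cone_above {u : V → ℝ} (hc : Continuous u) (hu : SubOn u Set.univ) {x₀ x : V} {R M : ℝ}
    (hR : 0 < R) (hx : ‖x - x₀‖ ≤ R) (hM : ∀ y, ‖y - x₀‖ ≤ R → u y ≤ M) :
    u x ≤ u x₀ + (M - u x₀) / R * ‖x - x₀‖ := by
  set s := (M - u x₀) / R with hs
  have hs0 : 0 ≤ s := div_nonneg (by have := hM x₀ (by simp [hR.le]); linarith) hR.le
  have key : ∀ η > 0, u x ≤ u x₀ + (s + η) * ‖x - x₀‖ := by
    intro η hη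
    set δ := η / (4 * R) with hδ
    have hδpos : 0 < δ := by positivity
    have hδR : δ * R = η / 4 := by rw [hδ]; field_simp
    set b := s + η with hb
    set φ := fun y => b * ‖y - x₀‖ - δ * ‖y - x₀‖ ^ 2 with hφ
    have hcont : Continuous fun y => u y - φ y := by
      simp only [hφ]; fun_prop
    obtain ⟨z, hz, hmax⟩ := (isCompact_closedBall x₀ R).exists_isMaxOn
      ⟨x₀, mem_closedBall_self hR.le⟩ hcont.continuousOn
    have hzR : ‖z - x₀‖ ≤ R := by simpa [dist_eq_norm] using hz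
    have hle : u z - φ z ≤ u x₀ := by
      by_cases h0 : z = x₀
      · subst h0; simp [hφ]
      rcases hzR.lt_or_eq with hlt | heq
      · exfalso
        have hloc : IsLocalMax (fun y => u y - φ y) z :=
          hmax.isLocalMax (closedBall_mem_nhds_of_mem (by simpa [dist_eq_norm] using hlt))
        obtain ⟨hcd, hval⟩ := infLap_cone x₀ z b δ h0
        have h := hu z trivial φ hcd hloc
        rw [hφ, hval] at h
        have hpos : 0 < b - 2 * δ * ‖z - x₀‖ := by
          have : δ * ‖z - x₀‖ ≤ δ * R := mul_le_mul_of_nonneg_left hzR hδpos.le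
          rw [hb]; linarith
        nlinarith [mul_pos hδpos (pow_pos hpos 2)]
      · have h1 := hM z hzR
        have h2 : s * R = M - u x₀ := by rw [hs]; field_simp
        have h3 : δ * R ^ 2 ≤ η * R := by nlinarith
        simp only [hφ, hb, heq]
        nlinarith
    have hxz := hmax (show x ∈ closedBall x₀ R by simpa [dist_eq_norm] using hx)
    simp only [Set.mem_ofPred_eq, hφ] at hxz hle
    nlinarith [mul_nonneg hδpos.le (sq_nonneg ‖x - x₀‖)]
  refine le_of_forall_pos_le_add fun η hη => ?_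
  have h := key (η / (‖x - x₀‖ + 1)) (by positivity)
  have h' : η / (‖x - x₀‖ + 1) * ‖x - x₀‖ ≤ η := by
    rw [div_mul_eq_mul_div, div_le_iff₀ (by positivity)]
    nlinarith [norm_nonneg (x - x₀)]
  linarith

/-- An affine upper bound gives the Lipschitz bound by its slope. -/
theorem slope_le {u : V → ℝ} (hc : Continuous u) (hu : SubOn u Set.univ) {p : V} {c : ℝ}
    (hb : ∀ x, u x ≤ ⟪p, x⟫ + c) (x y : V) : u x ≤ u y + ‖p‖ * ‖x - y‖ := by
  refine le_of_forall_pos_le_add fun η hη => ?_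
  set N := |⟪p, y⟫ + c - u y| * ‖x - y‖ with hN
  set R := max (‖x - y‖ + 1) (N / η) with hRdef
  have hR : 0 < R := lt_of_lt_of_le (by positivity) (le_max_left _ _)
  have hM : ∀ w, ‖w - y‖ ≤ R → u w ≤ ⟪p, y⟫ + c + ‖p‖ * R := by
    intro w hw
    have h1 := (real_inner_le_norm p (w - y)).trans (mul_le_mul_of_nonneg_left hw (norm_nonneg p))
    rw [inner_sub_right] at h1
    linarith [hb w]
  have h := cone_above hc hu hR (le_trans (by linarith) (le_max_left _ _)) hM
  have h2 : N / R ≤ η := by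
    rw [div_le_iff₀ hR]
    have := le_max_right (‖x - y‖ + 1) (N / η)
    rw [div_le_iff₀ hη] at this
    linarith
  have h3 : (⟪p, y⟫ + c + ‖p‖ * R - u y) / R * ‖x - y‖ ≤ ‖p‖ * ‖x - y‖ + N / R := by
    have : (⟪p, y⟫ + c + ‖p‖ * R - u y) / R * ‖x - y‖ =
        ‖p‖ * ‖x - y‖ + (⟪p, y⟫ + c - u y) * ‖x - y‖ / R := by field_simp; ring
    rw [this, hN]
    gcongr
    exact le_abs_self _
  linarith

omit [FiniteDimensional ℝ V] in
/-- Distance to a far point on a line through `e`. -/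
theorem norm_add_smul_le {e d : V} (he : ‖e‖ = 1) {T : ℝ} (hT : 2 * ‖d‖ < T) :
    ‖d + T • e‖ ≤ ⟪e, d + T • e⟫ + ‖d‖ ^ 2 / T := by
  have hTp : 0 < T := lt_of_le_of_lt (by positivity) hT
  set s := ⟪e, d⟫ with hsdef
  have hs : |s| ≤ ‖d‖ := by
    have := abs_real_inner_le_norm e d
    rwa [he, one_mul] at this
  have hsum : ⟪e, d + T • e⟫ = s + T := by
    simp [inner_add_right, real_inner_smul_right, he, hsdef]
  have hsq : ‖d + T • e‖ ^ 2 = ‖d‖ ^ 2 + 2 * T * s + T ^ 2 := by
    rw [norm_add_sq_real, real_inner_smul_right, norm_smul, he, real_inner_comm]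
    simp [hsdef]
    ring
  rw [hsum]
  have hs' := abs_le.1 hs
  have hpos : 0 ≤ s + T + ‖d‖ ^ 2 / T := by
    have : 0 ≤ ‖d‖ ^ 2 / T := by positivity
    linarith
  refine le_of_sq_le_sq ?_ hpos
  rw [hsq]
  have hq : ‖d‖ ^ 2 / T * T = ‖d‖ ^ 2 := by field_simp
  have h0 : 0 ≤ ‖d‖ ^ 2 / T := by positivity
  nlinarith [mul_nonneg h0 (show (0 : ℝ) ≤ 2 * s + T by linarith), sq_nonneg (‖d‖ ^ 2 / T), sq_nonneg s]

/-- A real recursion forces sublinear growth of order at most one eighth to vanish. -/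
theorem growth_zero {G : ℝ → ℝ} {C : ℝ} (hC : ∀ S, 0 < S → G S ≤ C * S ^ (1 / 8 : ℝ))
    (hrec : ∀ S, 0 < S → G (7 / 8 * S) ≤ 23 / 24 * G S + 1 / 64 * G (16 * S)) :
    ∀ S, 0 < S → G S ≤ 0 := by
  have h1 : (8 / 7 : ℝ) ^ (1 / 8 : ℝ) ≤ 1017 / 1000 := by
    rw [one_div (8 : ℝ), Real.rpow_inv_le_iff_of_pos (by norm_num) (by norm_num) (by norm_num),
      show (8 : ℝ) = ((8 : ℕ) : ℝ) by norm_num, Real.rpow_natCast]
    norm_num
  have h2 : (128 / 7 : ℝ) ^ (1 / 8 : ℝ) ≤ 1439 / 1000 := by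
    rw [one_div (8 : ℝ), Real.rpow_inv_le_iff_of_pos (by norm_num) (by norm_num) (by norm_num),
      show (8 : ℝ) = ((8 : ℕ) : ℝ) by norm_num, Real.rpow_natCast]
    norm_num
  have hit : ∀ n : ℕ, ∀ S, 0 < S → G S ≤ max C 0 * (998 / 1000) ^ n * S ^ (1 / 8 : ℝ) := by
    intro n
    induction n with
    | zero =>
      intro S hS
      have : 0 ≤ S ^ (1 / 8 : ℝ) := Real.rpow_nonneg hS.le _
      simpa using (hC S hS).trans (mul_le_mul_of_nonneg_right (le_max_left C 0) this)
    | succ n ih =>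
      intro S hS
      set D := max C 0 * (998 / 1000) ^ n with hD
      have hD0 : 0 ≤ D := by positivity
      have hP : 0 ≤ D * S ^ (1 / 8 : ℝ) := mul_nonneg hD0 (Real.rpow_nonneg hS.le _)
      have h := hrec (8 / 7 * S) (by positivity)
      rw [show (7 / 8 : ℝ) * (8 / 7 * S) = S by ring,
        show (16 : ℝ) * (8 / 7 * S) = 128 / 7 * S by ring] at h
      have i1 := ih (8 / 7 * S) (by positivity)
      have i2 := ih (128 / 7 * S) (by positivity)
      rw [Real.mul_rpow (by norm_num) hS.le] at i1 i2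
      have j1 := mul_le_mul_of_nonneg_left h1 hP
      have j2 := mul_le_mul_of_nonneg_left h2 hP
      rw [pow_succ, ← mul_assoc, ← hD]
      nlinarith
  intro S hS
  have ht := ((tendsto_pow_atTop_nhds_zero_of_lt_one (r := (998 / 1000 : ℝ)) (by norm_num)
    (by norm_num)).const_mul (max C 0)).mul_const (S ^ (1 / 8 : ℝ))
  rw [mul_zero, zero_mul] at ht
  exact ge_of_tendsto' ht fun n => hit n S hS

/-- Liouville theorem: slope `‖p‖` and deviation of order at most one eighth along one half line. -/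
theorem liouville_line {u : V → ℝ} (hc : Continuous u) (hu : SubOn u Set.univ) {p : V}
    (hL : ∀ x y, u x ≤ u y + ‖p‖ * ‖x - y‖) {a : V} {c : ℝ}
    (hline : ∀ t : ℝ, 1 ≤ t → u (a - t • p) ≤ ⟪p, a - t • p⟫ + c * t ^ (1 / 8 : ℝ)) :
    ∃ c', ∀ x, u x = ⟪p, x⟫ + c' := by
  rcases eq_or_ne p 0 with rfl | hp
  · refine ⟨u a, fun x => le_antisymm ?_ ?_⟩
    · simpa using hL x a
    · simpa using hL a x
  set k := ‖p‖ with hk
  have hkpos : 0 < k := norm_pos_iff.2 hp
  set e := k⁻¹ • p with hedef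
  have he : ‖e‖ = 1 := by
    rw [hedef, norm_smul, norm_inv, Real.norm_of_nonneg hkpos.le, hk]
    exact inv_mul_cancel₀ (norm_ne_zero_iff.2 hp)
  have hpe : p = k • e := by rw [hedef, smul_inv_smul₀ hkpos.ne']
  have hip : ∀ x, ⟪p, x⟫ = k * ⟪e, x⟫ := fun x => by rw [hpe, real_inner_smul_left]
  have hee : ⟪e, e⟫ = 1 := by rw [real_inner_self_eq_norm_sq, he, one_pow]
  set v := fun x => u x - ⟪p, x⟫ with hv
  have hanti : ∀ (z : V) (T : ℝ), 0 ≤ T → v (z + T • e) ≤ v z := by
    intro z T hT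
    have h := hL (z + T • e) z
    rw [add_sub_cancel_left, norm_smul, he, Real.norm_of_nonneg hT] at h
    simp only [hv, inner_add_right, hip, real_inner_smul_right, hee]
    linarith
  have hshift : ∀ (z₀ z : V) (T : ℝ), 2 * ‖z₀ - z‖ < T →
      v z₀ ≤ v (z - T • e) + k * (‖z₀ - z‖ ^ 2 / T) := by
    intro z₀ z T hT
    have h := hL z₀ (z - T • e)
    rw [show z₀ - (z - T • e) = (z₀ - z) + T • e by abel] at h
    have hn := mul_le_mul_of_nonneg_left (norm_add_smul_le (d := z₀ - z) he hT) hkpos.le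
    simp only [hv, hip, inner_add_right, inner_sub_right, real_inner_smul_right, hee] at hn ⊢
    linarith
  have hrec : ∀ (z : V) (S : ℝ), 0 < S → v (z - (7 / 8 * S) • e) - v z ≤
      23 / 24 * (v (z - S • e) - v z) + 1 / 64 * (v (z - (16 * S) • e) - v z) := by
    intro z S hS
    have hM : ∀ y, ‖y - (z - S • e)‖ ≤ 3 * S →
        u y ≤ 5 / 8 * u z + 3 / 8 * u (z - (16 * S) • e) + 8 * k * S := by
      intro y hy
      set w := y - (z - S • e) with hw
      set s := ⟪e, w⟫ with hs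
      have hs3 : |s| ≤ 3 * S := by
        have := abs_real_inner_le_norm e w
        rw [he, one_mul] at this
        linarith
      have hs3' := abs_le.1 hs3
      have d1 : ‖y - z‖ ≤ 7 / 2 * S - s / 2 := by
        rw [show y - z = w - S • e by rw [hw]; module]
        refine le_of_sq_le_sq ?_ (by linarith)
        rw [norm_sub_sq_real, norm_smul, he, real_inner_smul_right, real_inner_comm, ← hs,
          Real.norm_of_nonneg hS.le]
        nlinarith [sq_nonneg (s / 2 - 3 / 2 * S), norm_nonneg w]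
      have d2 : ‖y - (z - (16 * S) • e)‖ ≤ 31 / 2 * S + 5 / 6 * s := by
        rw [show y - (z - (16 * S) • e) = w + (15 * S) • e by rw [hw]; module]
        refine le_of_sq_le_sq ?_ (by linarith)
        rw [norm_add_sq_real, norm_smul, he, real_inner_smul_right, real_inner_comm, ← hs,
          Real.norm_of_nonneg (by linarith : (0 : ℝ) ≤ 15 * S)]
        nlinarith [sq_nonneg (5 / 6 * s - 5 / 2 * S), norm_nonneg w]
      have e1 := mul_le_mul_of_nonneg_left d1 hkpos.le
      have e2 := mul_le_mul_of_nonneg_left d2 hkpos.le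
      linarith [hL y z, hL y (z - (16 * S) • e)]
    have hx : ‖(z - (7 / 8 * S) • e) - (z - S • e)‖ = S / 8 := by
      rw [show (z - (7 / 8 * S) • e) - (z - S • e) = (S / 8) • e by module,
        norm_smul, he, Real.norm_of_nonneg (by linarith)]
      ring
    have h := cone_above hc hu (by positivity : 0 < 3 * S) (by rw [hx]; linarith) hM
    have h24 : ∀ X : ℝ, X / (3 * S) * (S / 8) = X / 24 := fun X => by field_simp; ring
    rw [hx, h24] at h
    simp only [hv, hip, inner_sub_right, real_inner_smul_right, hee] at h ⊢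
    linarith
  have hbound : ∀ z : V, ∃ C, ∀ S, 0 < S → v (z - S • e) - v z ≤ C * S ^ (1 / 8 : ℝ) := by
    intro z
    set d := ‖z - a‖ with hd
    set S₀ := max 1 (max k (2 * d)) with hS₀
    set A := |c| * (2 / k) ^ (1 / 8 : ℝ) + k * d ^ 2 + |v z| with hA
    set B := 2 * k * S₀ with hB
    have hS₀pos : 0 < S₀ := lt_of_lt_of_le one_pos (le_max_left _ _)
    have hA0 : 0 ≤ A := by positivity
    have hB0 : 0 ≤ B := by positivity
    refine ⟨A + B, fun S hS => ?_⟩
    have hP : 0 ≤ S ^ (1 / 8 : ℝ) := Real.rpow_nonneg hS.le _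
    rcases le_or_gt S S₀ with hSS | hSS
    · have h0 := hL (z - S • e) z
      rw [show z - S • e - z = -(S • e) by abel, norm_neg, norm_smul, he,
        Real.norm_of_nonneg hS.le] at h0
      have h1 : v (z - S • e) - v z ≤ 2 * k * S := by
        simp only [hv, hip, inner_sub_right, real_inner_smul_right, hee]
        linarith
      have h2 : S ≤ S₀ * S ^ (1 / 8 : ℝ) := by
        rcases le_or_gt S 1 with hS1 | hS1
        · have h := Real.rpow_le_rpow_of_exponent_ge hS hS1 (show (1 / 8 : ℝ) ≤ 1 by norm_num)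
          rw [Real.rpow_one] at h
          nlinarith [le_max_left (1 : ℝ) (max k (2 * d))]
        · nlinarith [Real.one_le_rpow hS1.le (show (0 : ℝ) ≤ 1 / 8 by norm_num)]
      have h3 := mul_le_mul_of_nonneg_left h2 (by positivity : (0 : ℝ) ≤ 2 * k)
      have h4 := mul_nonneg hA0 hP
      rw [hB]
      linarith
    · have hS1 : 1 < S := lt_of_le_of_lt (le_max_left _ _) hSS
      have hSk : k < S := lt_of_le_of_lt ((le_max_left _ _).trans (le_max_right _ _)) hSS
      have hSd : 2 * d < S := lt_of_le_of_lt ((le_max_right _ _).trans (le_max_right _ _)) hSS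
      have hd' : ‖z - S • e - (a - S • e)‖ = d := by
        rw [show z - S • e - (a - S • e) = z - a by abel, ← hd]
      have h := hshift (z - S • e) (a - S • e) S (by rw [hd']; exact hSd)
      rw [hd', show a - S • e - S • e = a - (2 * S / k) • p by
        rw [hedef, smul_smul, div_eq_mul_inv]; module] at h
      have hl := hline (2 * S / k) (by rw [le_div_iff₀ hkpos]; linarith)
      have hpow : (2 * S / k) ^ (1 / 8 : ℝ) = (2 / k) ^ (1 / 8 : ℝ) * S ^ (1 / 8 : ℝ) := by
        rw [mul_div_right_comm, Real.mul_rpow (by positivity) hS.le]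
      have hq : k * (d ^ 2 / S) ≤ k * d ^ 2 :=
        mul_le_mul_of_nonneg_left (div_le_self (sq_nonneg _) hS1.le) hkpos.le
      have hc' : c * ((2 / k) ^ (1 / 8 : ℝ) * S ^ (1 / 8 : ℝ)) ≤
          |c| * ((2 / k) ^ (1 / 8 : ℝ) * S ^ (1 / 8 : ℝ)) :=
        mul_le_mul_of_nonneg_right (le_abs_self c) (by positivity)
      have hone := Real.one_le_rpow hS1.le (show (0 : ℝ) ≤ 1 / 8 by norm_num)
      have h5 : k * d ^ 2 + |v z| ≤ (k * d ^ 2 + |v z|) * S ^ (1 / 8 : ℝ) :=
        le_mul_of_one_le_right (by positivity) hone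
      have h6 := mul_nonneg hB0 hP
      rw [hpow] at hl
      simp only [hv] at h hl h5 ⊢
      rw [hA]
      have h7 := neg_abs_le (u z - ⟪p, z⟫)
      linarith
  have hflat : ∀ (z : V) (S : ℝ), 0 < S → v (z - S • e) ≤ v z := by
    intro z S hS
    obtain ⟨C, hC⟩ := hbound z
    have := growth_zero (G := fun S => v (z - S • e) - v z) hC (hrec z) S hS
    linarith
  have hconst : ∀ z₀ z, v z₀ ≤ v z := by
    intro z₀ z
    refine le_of_forall_pos_le_add fun η hη => ?_
    set T := max (2 * ‖z₀ - z‖) (k * ‖z₀ - z‖ ^ 2 / η) + 1 with hT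
    have hT1 : 2 * ‖z₀ - z‖ < T := by
      have := le_max_left (2 * ‖z₀ - z‖) (k * ‖z₀ - z‖ ^ 2 / η)
      linarith
    have hTp : 0 < T := lt_of_le_of_lt (by positivity) hT1
    have hq : k * (‖z₀ - z‖ ^ 2 / T) ≤ η := by
      have := le_max_right (2 * ‖z₀ - z‖) (k * ‖z₀ - z‖ ^ 2 / η)
      rw [div_le_iff₀ hη] at this
      rw [← mul_div_assoc, div_le_iff₀ hTp, hT]
      linarith
    linarith [hshift z₀ z T hT1, hflat z T hTp]
  refine ⟨v a, fun x => ?_⟩
  have h1 := hconst x a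
  have h2 := hconst a x
  simp only [hv] at h1 h2 ⊢
  linarith

/-- A function bounded above by an affine function is that function up to a constant. -/
theorem liouville_above {u : V → ℝ} (hc : Continuous u) (hu : SubOn u Set.univ) {p : V} {c : ℝ}
    (hb : ∀ x, u x ≤ ⟪p, x⟫ + c) : ∃ c', ∀ x, u x = ⟪p, x⟫ + c' :=
  liouville_line hc hu (slope_le hc hu hb) (a := 0) (c := |c|) fun t ht => by
    have := Real.one_le_rpow ht (show (0 : ℝ) ≤ 1 / 8 by norm_num)
    nlinarith [hb (0 - t • p), le_abs_self c, abs_nonneg c]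

end Vale.Agent.P080
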