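import Vale.Agent.P080.Basic

/-! # P080: rotationally symmetric infinity-harmonic functions -/

open Filter Topology
open scoped RealInnerProductSpace

set_option maxSynthPendingDepth 3

namespace Vale.Agent.P080

variable {E F : Type} [NormedAddCommGroup E] [InnerProductSpace ℝ E] [FiniteDimensional ℝ E]
  [NormedAddCommGroup F] [InnerProductSpace ℝ F] [FiniteDimensional ℝ F]

/-- The meridian inclusion `(y, r) ↦ (y, r e)`. -/
noncomputable def mer (e : F) : WithLp 2 (E × ℝ) →L[ℝ] WithLp 2 (E × F) :=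
  (WithLp.prodContinuousLinearEquiv 2 ℝ E F).symm.toContinuousLinearMap.comp
    (((ContinuousLinearMap.fst ℝ E ℝ).prod
      ((ContinuousLinearMap.toSpanSingleton ℝ e).comp (ContinuousLinearMap.snd ℝ E ℝ))).comp
        (WithLp.prodContinuousLinearEquiv 2 ℝ E ℝ).toContinuousLinearMap)

@[simp] theorem mer_fst (e : F) (w : WithLp 2 (E × ℝ)) : (mer e w).fst = w.fst := rfl

@[simp] theorem mer_snd (e : F) (w : WithLp 2 (E × ℝ)) : (mer e w).snd = w.snd • e := rfl

/-- The inner product as a bilinear map. -/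
noncomputable def ip (W : Type) [NormedAddCommGroup W] [InnerProductSpace ℝ W] :
    W →L[ℝ] W →L[ℝ] ℝ := innerSL ℝ

@[simp] theorem ip_apply {W : Type} [NormedAddCommGroup W] [InnerProductSpace ℝ W] (a b : W) :
    ip W a b = ⟪a, b⟫ := rfl

/-- Projection to the axis. -/
noncomputable def ax : WithLp 2 (E × F) →L[ℝ] WithLp 2 (E × ℝ) :=
  (WithLp.prodContinuousLinearEquiv 2 ℝ E ℝ).symm.toContinuousLinearMap.comp
    ((ContinuousLinearMap.inl ℝ E ℝ).comp ((ContinuousLinearMap.fst ℝ E F).comp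
      (WithLp.prodContinuousLinearEquiv 2 ℝ E F).toContinuousLinearMap))

/-- The vertical component. -/
noncomputable def vert : WithLp 2 (E × F) →L[ℝ] F :=
  (ContinuousLinearMap.snd ℝ E F).comp
    (WithLp.prodContinuousLinearEquiv 2 ℝ E F).toContinuousLinearMap

@[simp] theorem ax_apply (d : WithLp 2 (E × F)) : ax d = WithLp.toLp 2 (d.fst, 0) := rfl

@[simp] theorem vert_apply (d : WithLp 2 (E × F)) : vert d = d.snd := rfl

/-- Dependence on `(y, ‖x‖)` only. -/
def Radial (u : WithLp 2 (E × F) → ℝ) : Prop :=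
  ∀ z z', z.fst = z'.fst → ‖z.snd‖ = ‖z'.snd‖ → u z = u z'

theorem mer_inner {e : F} (he : ‖e‖ = 1) (a b : WithLp 2 (E × ℝ)) :
    ⟪mer e a, mer e b⟫ = ⟪a, b⟫ := by
  simp [inner_smul_left, inner_smul_right, real_inner_self_eq_norm_sq, he, mul_comm]

/-- A point of the meridian over `z`, on the side given by `σ`. -/
noncomputable def coord (σ : ℝ) (z : WithLp 2 (E × F)) : WithLp 2 (E × ℝ) :=
  WithLp.toLp 2 (z.fst, σ * ‖z.snd‖)

theorem radial_coord {u : WithLp 2 (E × F) → ℝ} (hu : Radial u) {e : F} (he : ‖e‖ = 1) {σ : ℝ}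
    (hσ : |σ| = 1) (z : WithLp 2 (E × F)) : u (mer e (coord σ z)) = u z :=
  hu _ _ (by simp [coord]) (by simp [coord, norm_smul, he, hσ])

theorem continuous_coord (σ : ℝ) : Continuous (coord (E := E) (F := F) σ) := by
  unfold coord; fun_prop

/-- `Δ∞` commutes with the inclusion when the gradient lies in the meridian. -/
theorem infLap_mer {e : F} (he : ‖e‖ = 1) {φ : WithLp 2 (E × F) → ℝ} {w : WithLp 2 (E × ℝ)}
    (hφ : ContDiffAt ℝ 2 φ (mer e w)) {c : ℝ} (hg : (gradient φ (mer e w)).snd = c • e) :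
    infLap (φ ∘ mer e) w = infLap φ (mer e w) := by
  set G := gradient φ (mer e w) with hG
  set g0 : WithLp 2 (E × ℝ) := WithLp.toLp 2 (G.fst, c) with hg0
  have hGi : mer e g0 = G := by
    refine (WithLp.ofLp_injective 2) (Prod.ext ?_ ?_)
    · exact mer_fst e g0
    · simpa [hg0, hg] using mer_snd e g0
  have hdiff : ∀ᶠ x in 𝓝 (mer e w), DifferentiableAt ℝ φ x :=
    (hφ.eventually (by simp)).mono fun x hx => hx.differentiableAt (by simp)
  have h1 : fderiv ℝ (φ ∘ mer e) =ᶠ[𝓝 w] fun x => (fderiv ℝ φ (mer e x)).comp (mer e) := by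
    filter_upwards [(mer (E := E) e).continuous.continuousAt.eventually hdiff] with x hx
    exact (hx.hasFDerivAt.comp x (mer e).hasFDerivAt).fderiv
  have hgr : gradient (φ ∘ mer e) w = g0 := gradient_eq_of fun v => by
    rw [h1.eq_of_nhds, ContinuousLinearMap.comp_apply, ← inner_gradient, ← hG, ← hGi, mer_inner he]
  have hD : HasFDerivAt (fderiv ℝ φ) (fderiv ℝ (fderiv ℝ φ) (mer e w)) (mer e w) :=
    ((hφ.fderiv_right (m := 1) (by norm_num)).differentiableAt (by simp)).hasFDerivAt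
  have h2 := ((hD.comp w (mer e).hasFDerivAt).clm_comp (hasFDerivAt_const (mer e) w)).congr_of_eventuallyEq h1
  unfold infLap
  rw [hgr, h2.fderiv, ← hG, ← hGi]
  simp

/-- A differentiable function with an extremum along a curve. -/
theorem fderiv_eq_zero_of_curve {V : Type} [NormedAddCommGroup V] [NormedSpace ℝ V]
    {ψ : V → ℝ} {c : ℝ → V} {v : V} (hψ : DifferentiableAt ℝ ψ (c 0)) (hc : HasDerivAt c v 0)
    (h : IsLocalExtr (ψ ∘ c) 0) : fderiv ℝ ψ (c 0) v = 0 := by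
  exact h.hasDerivAt_eq_zero (hψ.hasFDerivAt.comp_hasDerivAt 0 hc)

/-- A vertical vector killed in all directions orthogonal to `e` is a multiple of `e`. -/
theorem snd_gradient {e : F} (he : ‖e‖ = 1) {ψ : WithLp 2 (E × F) → ℝ} {z : WithLp 2 (E × F)}
    (h : ∀ v : F, ⟪e, v⟫ = 0 → fderiv ℝ ψ z (WithLp.toLp 2 (0, v)) = 0) :
    ∃ c : ℝ, (gradient ψ z).snd = c • e := by
  refine ⟨⟪e, (gradient ψ z).snd⟫, ?_⟩
  set x := (gradient ψ z).snd
  set v := x - ⟪e, x⟫ • e with hv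
  have hev : ⟪e, v⟫ = 0 := by
    simp [hv, inner_sub_right, inner_smul_right, real_inner_self_eq_norm_sq, he]
  have h1 := h v hev
  rw [← inner_gradient, WithLp.prod_inner_apply] at h1
  have h2 : ⟪x, v⟫ = 0 := by simpa using h1
  have h3 : ⟪v, v⟫ = 0 := by
    show ⟪x - ⟪e, x⟫ • e, v⟫ = 0
    rw [inner_sub_left, inner_smul_left, h2, hev]
    simp
  exact sub_eq_zero.1 (inner_self_eq_zero.1 h3)

/-- A touching function bounds `u` on both sides of the axis. -/
theorem axis_upper {u : WithLp 2 (E × F) → ℝ} (hu : Radial u)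
    {e : F} (he : ‖e‖ = 1) {w : WithLp 2 (E × ℝ)}
    {φ : WithLp 2 (E × ℝ) → ℝ} (hφ : ContDiffAt ℝ 2 φ w)
    (hm : IsLocalMax (fun x => (u ∘ mer e) x - φ x) w) (hr : w.snd = 0) {ε : ℝ} (hε : 0 < ε)
    {σ : ℝ} (hσ : |σ| = 1) : ∀ᶠ z in 𝓝 (mer e w),
      u z ≤ u (mer e w) + ⟪gradient φ w, coord σ z - w⟫ +
        fderiv ℝ (fderiv ℝ φ) w (coord σ z - w) (coord σ z - w) / 2 + ε * ‖coord σ z - w‖ ^ 2 := by
  have hco : coord σ (mer e w) = w := by
    refine (WithLp.ofLp_injective 2) (Prod.ext rfl ?_)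
    simp [coord, hr]
  have h1 := (taylor_le hφ hε).and hm
  rw [← hco] at h1
  filter_upwards [(continuous_coord σ).continuousAt.eventually h1] with z hz'
  obtain ⟨h2, h3⟩ := hz'
  rw [hco] at h2 h3
  simp only [Function.comp_apply, radial_coord hu he hσ] at h3
  rw [← inner_gradient] at h2
  linarith [(abs_le.1 h2).2]

/-- The second derivative along the axis, when the radial derivative vanishes. -/
theorem axis_even {u : WithLp 2 (E × F) → ℝ} (hu : Radial u) {Ω : Set (WithLp 2 (E × F))}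
    {e : F} (he : ‖e‖ = 1) (h : SubOn u Ω) {w : WithLp 2 (E × ℝ)} (hw : mer e w ∈ Ω)
    {φ : WithLp 2 (E × ℝ) → ℝ} (hφ : ContDiffAt ℝ 2 φ w)
    (hm : IsLocalMax (fun x => (u ∘ mer e) x - φ x) w)
    (hr : w.snd = 0) (hc : (gradient φ w).snd = 0) {ε : ℝ} (hε : 0 < ε) :
    0 ≤ fderiv ℝ (fderiv ℝ φ) w (gradient φ w) (gradient φ w) + 4 * ε * ‖gradient φ w‖ ^ 2 := by
  set A := fderiv ℝ (fderiv ℝ φ) w with hA
  set p := gradient φ w with hp
  have hz : mer e w = WithLp.toLp 2 (w.fst, 0) := by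
    refine (WithLp.ofLp_injective 2) (Prod.ext rfl ?_)
    simpa [hr] using mer_snd e w
  set L := ‖A‖ with hL
  set M : ℝ := L ^ 2 / (4 * ε) + L / 2 + ε with hM
  set B : WithLp 2 (E × F) →L[ℝ] WithLp 2 (E × F) →L[ℝ] ℝ :=
    (1 / 2 : ℝ) • A.bilinearComp ax ax + (2 * ε) • (ip _).bilinearComp ax ax
      + M • (ip _).bilinearComp vert vert with hB
  set q : WithLp 2 (E × F) := WithLp.toLp 2 (p.fst, 0) with hq
  have hmax : IsLocalMax (fun z => u z -
      (u (mer e w) + ⟪q, z - mer e w⟫ + B (z - mer e w) (z - mer e w))) (mer e w) := by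
    filter_upwards [axis_upper hu he hφ hm hr hε (σ := 1) abs_one] with z hz'
    rw [← hp, ← hA] at hz'
    simp only [sub_self, inner_zero_right, map_zero, add_zero]
    set d := z - mer e w with hd
    set t : WithLp 2 (E × ℝ) := WithLp.toLp 2 (d.fst, 0) with ht
    set s : WithLp 2 (E × ℝ) := WithLp.toLp 2 (0, ‖d.snd‖) with hs
    have hsplit : coord 1 z - w = t + s := by
      refine (WithLp.ofLp_injective 2) (Prod.ext ?_ ?_)
      · simp [coord, ht, hs, hd]
      · simp [coord, ht, hs, hd, hr, hz]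
    have hsn : ‖s‖ = ‖d.snd‖ := by simp [hs]
    have hpt : ⟪p, t + s⟫ = ⟪q, d⟫ := by simp [ht, hs, hq, hc]
    have hn : ‖t + s‖ ^ 2 = ‖t‖ ^ 2 + ‖s‖ ^ 2 := by
      rw [norm_add_sq_real]; simp [ht, hs]
    have hAts : ∀ a b, A a b ≤ L * (‖a‖ * ‖b‖) := fun a b => by
      calc A a b ≤ ‖A a b‖ := le_abs_self _
        _ ≤ L * ‖a‖ * ‖b‖ := A.le_opNorm₂ a b
        _ = L * (‖a‖ * ‖b‖) := mul_assoc _ _ _
    have hAB : B d d = A t t / 2 + 2 * ε * ‖t‖ ^ 2 + M * ‖d.snd‖ ^ 2 := by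
      simp [hB, ht, real_inner_self_eq_norm_sq]
      ring
    rw [hsplit, hpt, hn] at hz'
    simp only [map_add, ContinuousLinearMap.add_apply] at hz'
    have hyoung : L * (‖t‖ * ‖s‖) ≤ ε * ‖t‖ ^ 2 + L ^ 2 / (4 * ε) * ‖s‖ ^ 2 := by
      have : 0 ≤ (2 * ε * ‖t‖ - L * ‖s‖) ^ 2 / (4 * ε) := by positivity
      have heq : (2 * ε * ‖t‖ - L * ‖s‖) ^ 2 / (4 * ε) =
          ε * ‖t‖ ^ 2 + L ^ 2 / (4 * ε) * ‖s‖ ^ 2 - L * (‖t‖ * ‖s‖) := by
        field_simp
        ring
      linarith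
    rw [hAB, ← hsn, hM]
    nlinarith [hAts t s, hAts s t, hAts s s]
  have h0 := h (mer e w) hw _ (contDiff_quad _ _ _ B).contDiffAt hmax
  rw [infLap_quad] at h0
  have hq' : WithLp.toLp 2 (p.fst, (0 : ℝ)) = p :=
    (WithLp.ofLp_injective 2) (Prod.ext rfl hc.symm)
  have hpn : ‖p‖ ^ 2 = ‖p.fst‖ ^ 2 := by
    rw [WithLp.prod_norm_sq_eq_of_L2, hc]; simp
  simp [hB, hq, hq', real_inner_self_eq_norm_sq] at h0
  linarith

/-- A kink on the axis is impossible. -/
theorem axis_radial {u : WithLp 2 (E × F) → ℝ} (hu : Radial u) {Ω : Set (WithLp 2 (E × F))}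
    {e : F} (he : ‖e‖ = 1) (h : SubOn u Ω) {w : WithLp 2 (E × ℝ)} (hw : mer e w ∈ Ω)
    {φ : WithLp 2 (E × ℝ) → ℝ} (hφ : ContDiffAt ℝ 2 φ w)
    (hm : IsLocalMax (fun x => (u ∘ mer e) x - φ x) w)
    (hr : w.snd = 0) : (gradient φ w).snd = 0 := by
  by_contra hc
  set A := fderiv ℝ (fderiv ℝ φ) w with hA
  set p := gradient φ w with hp
  have hz : mer e w = WithLp.toLp 2 (w.fst, 0) := by
    refine (WithLp.ofLp_injective 2) (Prod.ext rfl ?_)
    simpa [hr] using mer_snd e w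
  set L := ‖A‖ with hL
  have hL0 : 0 ≤ L := norm_nonneg A
  set c := p.snd with hc'
  set σ : ℝ := -(c / |c|) with hσdef
  have hcabs : 0 < |c| := abs_pos.2 hc
  have hσ : |σ| = 1 := by simp [hσdef, abs_div, hcabs.ne']
  have hσc : c * σ = -|c| := by
    rw [hσdef]
    field_simp
    rw [sq_abs]
  set K : ℝ := L / 2 + 1 with hK
  have hK0 : 0 ≤ K := by positivity
  set M : ℝ := 4 * (K * ‖p.fst‖ ^ 2 + 1) / c ^ 2 with hM
  have hM0 : 0 ≤ M := by positivity
  set l : WithLp 2 (E × F) →L[ℝ] ℝ := (ip F e).comp vert with hl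
  set B : WithLp 2 (E × F) →L[ℝ] WithLp 2 (E × F) →L[ℝ] ℝ :=
    K • (ip _).bilinearComp ax ax - M • (ContinuousLinearMap.mul ℝ ℝ).bilinearComp l l with hB
  set q : WithLp 2 (E × F) := WithLp.toLp 2 (p.fst, (c / 2) • e) with hq
  have hsmall : ∀ᶠ z in 𝓝 (mer e w), ‖z.snd‖ * (2 * (K + M) + 1) ≤ |c| := by
    have hcont : Continuous fun z : WithLp 2 (E × F) => ‖z.snd‖ * (2 * (K + M) + 1) := by fun_prop
    exact (hcont.continuousAt.eventually_lt continuousAt_const (by simp [hz, hcabs])).mono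
      fun z hz => hz.le
  have hmax : IsLocalMax (fun z => u z -
      (u (mer e w) + ⟪q, z - mer e w⟫ + B (z - mer e w) (z - mer e w))) (mer e w) := by
    filter_upwards [axis_upper hu he hφ hm hr one_pos hσ, hsmall] with z hz' hsm
    rw [← hp, ← hA] at hz'
    simp only [sub_self, inner_zero_right, map_zero, add_zero]
    set d := z - mer e w with hd
    have hd2 : d.snd = z.snd := by simp [hd, hr]
    set v := coord σ z - w with hv
    have hv1 : v.fst = d.fst := by simp [hv, hd, coord]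
    have hv2 : v.snd = σ * ‖d.snd‖ := by simp [hv, hd2, coord, hr]
    have hn : ‖v‖ ^ 2 = ‖d.fst‖ ^ 2 + ‖d.snd‖ ^ 2 := by
      rw [WithLp.prod_norm_sq_eq_of_L2, hv1, hv2]
      simp [abs_mul, hσ, mul_pow]
    have hpv : ⟪p, v⟫ = ⟪p.fst, d.fst⟫ - |c| * ‖d.snd‖ := by
      simp [hv1, hv2, ← hc']
      linear_combination ‖d.snd‖ * hσc
    have hAv : A v v ≤ L * ‖v‖ ^ 2 := by
      calc A v v ≤ ‖A v v‖ := le_abs_self _
        _ ≤ L * ‖v‖ * ‖v‖ := A.le_opNorm₂ v v
        _ = L * ‖v‖ ^ 2 := by ring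
    have hBd : B d d = K * ‖d.fst‖ ^ 2 - M * ⟪e, d.snd⟫ ^ 2 := by
      simp [hB, hl, real_inner_self_eq_norm_sq, sq]
    have hqd : ⟪q, d⟫ = ⟪p.fst, d.fst⟫ + c / 2 * ⟪e, d.snd⟫ := by
      simp [hq, inner_smul_left]
    have hin : |⟪e, d.snd⟫| ≤ ‖d.snd‖ := by
      simpa [he] using abs_real_inner_le_norm e d.snd
    have hin2 : ⟪e, d.snd⟫ ^ 2 ≤ ‖d.snd‖ ^ 2 := by
      rw [← sq_abs ⟪e, d.snd⟫]; gcongr
    have hlin : -(|c| / 2 * ‖d.snd‖) ≤ c / 2 * ⟪e, d.snd⟫ := by
      have : |c / 2 * ⟪e, d.snd⟫| ≤ |c| / 2 * ‖d.snd‖ := by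
        rw [abs_mul, abs_div, abs_two]; gcongr
      linarith [neg_le_of_abs_le this]
    rw [← hd2] at hsm
    rw [hpv, hn] at hz'
    rw [hn] at hAv
    nlinarith [mul_le_mul_of_nonneg_left hsm (norm_nonneg d.snd),
      mul_le_mul_of_nonneg_left hin2 hM0]
  have h0 := h (mer e w) hw _ (contDiff_quad _ _ _ B).contDiffAt hmax
  rw [infLap_quad] at h0
  simp [hB, hl, hq, real_inner_self_eq_norm_sq, inner_smul_right, he] at h0
  have hMc : M * c ^ 2 = 4 * (K * ‖p.fst‖ ^ 2 + 1) := div_mul_cancel₀ _ (pow_ne_zero 2 hc)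
  nlinarith

/-- Off the axis the test function transfers. -/
theorem sub_mer_off {u : WithLp 2 (E × F) → ℝ} (hu : Radial u) {Ω : Set (WithLp 2 (E × F))}
    {e : F} (he : ‖e‖ = 1) (h : SubOn u Ω) {w : WithLp 2 (E × ℝ)} (hw : mer e w ∈ Ω)
    {φ : WithLp 2 (E × ℝ) → ℝ} (hφ : ContDiffAt ℝ 2 φ w)
    (hm : IsLocalMax (fun x => (u ∘ mer e) x - φ x) w)
    (hr : w.snd ≠ 0) : 0 ≤ infLap φ w := by
  set r := w.snd with hr'
  set σ : ℝ := r / |r| with hσdef
  have hrabs : 0 < |r| := abs_pos.2 hr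
  have hσ : |σ| = 1 := by simp [hσdef, abs_div, hrabs.ne']
  set z₀ := mer e w with hz₀
  have hco : coord σ z₀ = w := by
    refine (WithLp.ofLp_injective 2) (Prod.ext rfl ?_)
    simp [coord, hz₀, norm_smul, he, hσdef, ← hr']
    field_simp
  have hψ : ContDiffAt ℝ 2 (fun z => φ (coord σ z)) z₀ := by
    have h1 : ContDiffAt ℝ 2 (fun z : WithLp 2 (E × F) => coord σ z) z₀ := by
      have hne : (WithLp.prodContinuousLinearEquiv 2 ℝ E F z₀).2 ≠ 0 := by
        intro h0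
        have h3 : r • e = 0 := (mer_snd e w).symm.trans h0
        rcases smul_eq_zero.1 h3 with h4 | h4
        · exact hr h4
        · simp [h4] at he
      have hsnd : ContDiffAt ℝ 2 (fun z => (WithLp.prodContinuousLinearEquiv 2 ℝ E F z).2) z₀ := by
        fun_prop
      exact (WithLp.prodContinuousLinearEquiv 2 ℝ E ℝ).symm.contDiff.contDiffAt.comp z₀
        (((contDiff_fst.comp (WithLp.prodContinuousLinearEquiv 2 ℝ E F).contDiff).contDiffAt).prodMk
          (contDiffAt_const.mul (hsnd.norm ℝ hne)))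
    rw [← hco] at hφ
    exact hφ.comp z₀ h1
  have hmax : IsLocalMax (fun z => u z - φ (coord σ z)) z₀ := by
    have h2 := hm
    rw [← hco] at h2
    refine (h2.comp_continuous (continuous_coord σ).continuousAt).congr
      (.of_forall fun z => ?_)
    simp [radial_coord hu he hσ]
  have hcurve : ∀ v : F, ⟪e, v⟫ = 0 → fderiv ℝ (fun z => φ (coord σ z)) z₀ (WithLp.toLp 2 (0, v)) = 0 := by
    intro v hv
    set a : WithLp 2 (E × F) := WithLp.toLp 2 (0, v) with ha
    have hd := (hψ.differentiableAt (by simp)).hasFDerivAt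
    have hline : ∀ k : ℝ, HasDerivAt (fun t : ℝ => φ (coord σ (z₀ + (k * t) • a)))
        (fderiv ℝ (fun z => φ (coord σ z)) z₀ (k • a)) 0 := by
      intro k
      have hl' : HasDerivAt (fun t : ℝ => z₀ + (k * t) • a) (k • a) 0 := by
        simpa using (((hasDerivAt_id (0 : ℝ)).const_mul k).smul_const a).const_add z₀
      exact hd.comp_hasDerivAt_of_eq 0 hl' (by simp)
    have heven : (fun t : ℝ => φ (coord σ (z₀ + ((1 : ℝ) * t) • a))) =
        fun t : ℝ => φ (coord σ (z₀ + ((-1 : ℝ) * t) • a)) := by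
      funext t
      have h5 : ∀ s : ℝ, ‖r • e + s • v‖ ^ 2 = r ^ 2 + s ^ 2 * ‖v‖ ^ 2 := fun s => by
        rw [norm_add_sq_real, inner_smul_left, inner_smul_right, hv, norm_smul, norm_smul, he]
        simp [mul_pow, sq_abs]
      congr 1
      refine (WithLp.ofLp_injective 2) (Prod.ext ?_ ?_)
      · simp [coord, ha]
      · simp only [coord]
        have h6 : ‖r • e + t • v‖ = ‖r • e + (-t) • v‖ := by
          rw [← sq_eq_sq₀ (norm_nonneg _) (norm_nonneg _), h5, h5, neg_sq]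
        simpa [ha, hz₀, ← hr'] using congrArg (σ * ·) h6
    have h7 := hline 1
    rw [heven] at h7
    have h8 := h7.unique (hline (-1))
    simp only [one_smul, neg_smul, map_neg] at h8
    linarith
  obtain ⟨c, hc⟩ := snd_gradient he hcurve
  have h0 := h z₀ hw _ hψ hmax
  rw [← infLap_mer he hψ hc] at h0
  have hev : ((fun z => φ (coord σ z)) ∘ mer e) =ᶠ[𝓝 w] φ := by
    have hs : ∀ᶠ w' in 𝓝 w, 0 < σ * w'.snd := by
      have hc1 : Continuous fun w' : WithLp 2 (E × ℝ) => σ * w'.snd := by fun_prop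
      refine continuousAt_const.eventually_lt hc1.continuousAt ?_
      rw [← hr', hσdef, div_mul_eq_mul_div]
      exact div_pos (mul_self_pos.2 hr) hrabs
    filter_upwards [hs] with w' hw'
    have h9 : σ * |w'.snd| = w'.snd := by
      have : |σ * w'.snd| = σ * w'.snd := abs_of_pos hw'
      rw [abs_mul, hσ, one_mul] at this
      rw [this, ← mul_assoc, ← abs_mul_abs_self σ, hσ]
      ring
    show φ (coord σ (mer e w')) = φ w'
    congr 1
    refine (WithLp.ofLp_injective 2) (Prod.ext rfl ?_)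
    simp [coord, norm_smul, he, h9]
  unfold infLap gradient at h0 ⊢
  rwa [hev.fderiv.fderiv_eq, hev.fderiv_eq] at h0

/-- From `E ⊕ F` to the meridian plane. -/
theorem sub_mer {u : WithLp 2 (E × F) → ℝ} (hu : Radial u) {Ω : Set (WithLp 2 (E × F))}
    {e : F} (he : ‖e‖ = 1) (h : SubOn u Ω) : SubOn (u ∘ mer e) (mer e ⁻¹' Ω) := by
  intro w hw φ hφ hm
  by_cases hr : w.snd = 0
  · have hlim := fun ε hε => axis_even hu he h hw hφ hm hr (axis_radial hu he h hw hφ hm hr) (ε := ε) hε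
    unfold infLap
    set p := gradient φ w
    refine le_of_forall_pos_le_add fun η hη => ?_
    have hpos : 0 < 4 * ‖p‖ ^ 2 + 1 := by positivity
    have := hlim (η / (4 * ‖p‖ ^ 2 + 1)) (by positivity)
    have h5 : η / (4 * ‖p‖ ^ 2 + 1) * (4 * ‖p‖ ^ 2 + 1) = η := div_mul_cancel₀ _ hpos.ne'
    nlinarith [div_pos hη hpos]
  · exact sub_mer_off hu he h hw hφ hm hr

/-- From the meridian plane to `E ⊕ F`. -/
theorem sub_of_mer {u : WithLp 2 (E × F) → ℝ} (hu : Radial u) {Ω : Set (WithLp 2 (E × F))}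
    (hΩ : ∀ z z', z.fst = z'.fst → ‖z.snd‖ = ‖z'.snd‖ → z ∈ Ω → z' ∈ Ω)
    {e : F} (he : ‖e‖ = 1) (h : SubOn (u ∘ mer e) (mer e ⁻¹' Ω)) : SubOn u Ω := by
  intro z hz ψ hψ hm
  have hd : DifferentiableAt ℝ ψ z := hψ.differentiableAt (by simp)
  -- a unit vector whose line carries `z` and the gradient
  obtain ⟨e', he', r, hr, c, hc⟩ : ∃ e' : F, ‖e'‖ = 1 ∧ ∃ r : ℝ, z.snd = r • e' ∧
      ∃ c : ℝ, (gradient ψ z).snd = c • e' := by
    by_cases hx : z.snd = 0
    · by_cases hg : (gradient ψ z).snd = 0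
      · exact ⟨e, he, 0, by simp [hx], 0, by simp [hg]⟩
      · exact ⟨‖(gradient ψ z).snd‖⁻¹ • (gradient ψ z).snd, norm_smul_inv_norm hg, 0, by simp [hx],
          ‖(gradient ψ z).snd‖, by rw [smul_inv_smul₀ (norm_ne_zero_iff.2 hg)]⟩
    · obtain ⟨e', he', hzr⟩ : ∃ e' : F, ‖e'‖ = 1 ∧ z.snd = ‖z.snd‖ • e' :=
        ⟨‖z.snd‖⁻¹ • z.snd, norm_smul_inv_norm hx,
          by rw [smul_inv_smul₀ (norm_ne_zero_iff.2 hx)]⟩
      refine ⟨e', he', ‖z.snd‖, hzr, snd_gradient he' fun v hv => ?_⟩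
      rcases eq_or_ne v 0 with rfl | hv0
      · rw [show WithLp.toLp 2 ((0 : E), (0 : F)) = 0 from rfl, map_zero]
      set R := ‖z.snd‖ with hR
      obtain ⟨v1, hv1def, hv1⟩ : ∃ v1 : F, v1 = ‖v‖⁻¹ • v ∧ ‖v1‖ = 1 :=
        ⟨_, rfl, norm_smul_inv_norm hv0⟩
      have hev1 : ⟪e', v1⟫ = 0 := by simp [hv1def, inner_smul_right, hv]
      set γ : ℝ → WithLp 2 (E × F) := fun t =>
        (WithLp.prodContinuousLinearEquiv 2 ℝ E F).symm
          (z.fst, (R * Real.cos t) • e' + (R * Real.sin t) • v1) with hγ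
      have hγ0 : γ 0 = z := by
        refine (WithLp.ofLp_injective 2) (Prod.ext rfl ?_)
        simpa [hγ] using hzr.symm
      have hγu : ∀ t, u (γ t) = u z := fun t => hu _ _ rfl (by
        show ‖(R * Real.cos t) • e' + (R * Real.sin t) • v1‖ = R
        rw [← sq_eq_sq₀ (norm_nonneg _) (norm_nonneg _), norm_add_sq_real, inner_smul_left,
          inner_smul_right, hev1, norm_smul, norm_smul, he', hv1]
        simp [mul_pow, sq_abs]
        linear_combination R ^ 2 * Real.sin_sq_add_cos_sq t)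
      have hγd : HasDerivAt γ ((WithLp.prodContinuousLinearEquiv 2 ℝ E F).symm (0, R • v1)) 0 := by
        have h1 : HasDerivAt (fun t : ℝ => (R * Real.cos t) • e' + (R * Real.sin t) • v1) (R • v1) 0 := by
          simpa using (((Real.hasDerivAt_cos 0).const_mul R).smul_const e').fun_add
            (((Real.hasDerivAt_sin 0).const_mul R).smul_const v1)
        exact (WithLp.prodContinuousLinearEquiv 2 ℝ E F).symm.hasFDerivAt.comp_hasDerivAt 0
          ((hasDerivAt_const 0 z.fst).prodMk h1)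
      have hext : IsLocalExtr (ψ ∘ γ) 0 := by
        refine Or.inl ?_
        have h2 := hm
        rw [← hγ0] at h2
        filter_upwards [hγd.continuousAt.eventually h2] with t ht
        simp only [hγu, hγ0] at ht
        simp only [Function.comp_apply, hγ0]
        linarith
      have h3 := fderiv_eq_zero_of_curve (c := γ) (by rw [hγ0]; exact hd) hγd hext
      rw [hγ0] at h3
      have h4 : (WithLp.toLp 2 ((0 : E), v)) =
          (‖v‖ / R) • (WithLp.prodContinuousLinearEquiv 2 ℝ E F).symm (0, R • v1) := by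
        refine (WithLp.ofLp_injective 2) (Prod.ext (by simp) ?_)
        simp [hv1def, smul_smul, hR]
        rw [show ‖v‖ / ‖z.snd‖ * (‖z.snd‖ * ‖v‖⁻¹) = 1 by
          field_simp [norm_ne_zero_iff.2 hx, norm_ne_zero_iff.2 hv0], one_smul]
      rw [h4, map_smul, h3, smul_zero]
  set w : WithLp 2 (E × ℝ) := WithLp.toLp 2 (z.fst, r) with hw
  have hwz : mer e' w = z := (WithLp.ofLp_injective 2) (Prod.ext rfl (by simpa [hw] using hr.symm))
  have hueq : u ∘ mer e = u ∘ mer e' :=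
    funext fun x => hu _ _ rfl (by simp [norm_smul, he, he'])
  have hwΩ : w ∈ mer e ⁻¹' Ω := hΩ z _ rfl (by simp [hr, hw, norm_smul, he, he']) hz
  rw [← hwz] at hψ hc hm
  have hmax : IsLocalMax (fun x => (u ∘ mer e) x - (ψ ∘ mer e') x) w := by
    rw [hueq]
    exact hm.comp_continuous (mer e').continuous.continuousAt
  have h0 := h w hwΩ _ (hψ.comp w ((mer e').contDiff.contDiffAt (x := w))) hmax
  rwa [infLap_mer he' hψ hc, hwz] at h0

/-- Symmetry reduction. -/
theorem infHarmonicOn_mer_iff {u : WithLp 2 (E × F) → ℝ} (hu : Radial u)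
    {Ω : Set (WithLp 2 (E × F))}
    (hΩ : ∀ z z', z.fst = z'.fst → ‖z.snd‖ = ‖z'.snd‖ → z ∈ Ω → z' ∈ Ω)
    {e : F} (he : ‖e‖ = 1) :
    InfHarmonicOn u Ω ↔ InfHarmonicOn (u ∘ mer e) (mer e ⁻¹' Ω) := by
  have hu' : Radial (fun z => -u z) := fun z z' h1 h2 => by simp [hu z z' h1 h2]
  rw [infHarmonicOn_iff, infHarmonicOn_iff]
  constructor
  · rintro ⟨hc, h1, h2⟩
    exact ⟨hc.comp (mer e).continuous.continuousOn (Set.mapsTo_preimage _ _),
      sub_mer hu he h1, sub_mer hu' he h2⟩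
  · rintro ⟨hc, h1, h2⟩
    refine ⟨?_, sub_of_mer hu hΩ he h1, sub_of_mer hu' hΩ he h2⟩
    refine (hc.comp (continuous_coord 1).continuousOn fun z hz => ?_).congr fun z _ =>
      (radial_coord hu he abs_one z).symm
    exact hΩ z _ rfl (by simp [coord, norm_smul, he]) hz

end Vale.Agent.P080
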